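import Vale.Agent.P238.MathlibUsed

namespace Vale.Agent.P238

/-- One single-symbol edit operation on words: an insertion, a deletion or a substitution. -/
inductive EditStep {α : Type} : List α → List α → Prop
  | ins (u v : List α) (a : α) : EditStep (u ++ v) (u ++ a :: v)
  | del (u v : List α) (a : α) : EditStep (u ++ a :: v) (u ++ v)
  | sub (u v : List α) (a b : α) : EditStep (u ++ a :: v) (u ++ b :: v)

/-- `EditSteps d x y`: some sequence of exactly `d` edit operations transforms `x` into `y`. -/
inductive EditSteps {α : Type} : ℕ → List α → List α → Prop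
  | refl (x : List α) : EditSteps 0 x x
  | tail {d : ℕ} {x y z : List α} : EditSteps d x y → EditStep y z → EditSteps (d + 1) x z

/-- The edit distance: the least number of edit operations transforming `x` into `y`. -/
noncomputable def ED {α : Type} (x y : List α) : ℕ := sInf {d : ℕ | EditSteps d x y}

/-- The distortion of a map `f` from `(X, ρ)` to real `ℓ₁`:
the largest expansion times the largest contraction over pairs of distinct points. -/
noncomputable def distortion {X : Type} (ρ : X → X → ℝ) (f : X → lp (fun _ : ℕ => ℝ) 1) : ℝ :=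
  (⨆ p : {p : X × X // p.1 ≠ p.2}, ‖f p.1.1 - f p.1.2‖ / ρ p.1.1 p.1.2) *
  (⨆ p : {p : X × X // p.1 ≠ p.2}, ρ p.1.1 p.1.2 / ‖f p.1.1 - f p.1.2‖)

/-- `c₁(X, ρ)`: the infimum of the distortions of the injective maps `X → ℓ₁`. -/
noncomputable def c1 {X : Type} (ρ : X → X → ℝ) : ℝ :=
  ⨅ f : {f : X → lp (fun _ : ℕ => ℝ) 1 // Function.Injective f}, distortion ρ f.1

/-- The edit distance on binary words of length `n`. -/
noncomputable def binED (n : ℕ) (x y : Fin n → Bool) : ℝ :=
  (ED (List.ofFn x) (List.ofFn y) : ℝ)

end Vale.Agent.P238
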