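import Mathlib.Algebra.Order.Quantale
import Mathlib.Analysis.Complex.ExponentialBounds
import Mathlib.Analysis.Fourier.AddCircle
import Mathlib.Analysis.Fourier.FiniteAbelian.PontryaginDuality
import Mathlib.Data.Int.Star
import Mathlib.LinearAlgebra.Complex.FiniteDimensional
import Mathlib.NumberTheory.Chebyshev
import Mathlib.RingTheory.Flat.TorsionFree
import Mathlib.RingTheory.PicardGroup
import Mathlib.RingTheory.SimpleRing.Principal
import Mathlib.Tactic
import Mathlib.Topology.Algebra.ProperAction.Basic

/-! The part of Mathlib that the development of this folder uses. -/
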